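import Vale.Agent.P181.NR.Defs
import Vale.Agent.P181.MR.H752.Orb
import Vale.Agent.P181.H411.Seam4

/-!
# P181, NR (N2): the orbit inequality for one block (helper342)
-/

set_option autoImplicit false

open MvPolynomial

namespace Vale.Agent.P181.NR.H342

open Vale.Agent.P181.T4 (HW ColHom symP symP_apply plethMult_ge_poly weight_colW)
open Vale.Agent.P181.H280 (plethMult)
open Vale.Agent.P181.SZ Vale.Agent.P181.TL

/-- Symmetric highest weight polynomials in `n` points, of degree `a` in each point. -/
theorem pk_le (m n a : ℕ) (lam : Fin m → ℕ) :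
    Module.finrank ℂ (PK m (Fin n) (fun _ => a) lam) ≤ plethMult n a m lam := by
  classical
  have hfd : Module.Finite ℂ (PK m (Fin n) (fun _ => a) lam) :=
    Submodule.finiteDimensional_of_le (S₂ := HW m (Fin n) lam) fun _ h => h.1
  let v : Fin (Module.finrank ℂ (PK m (Fin n) (fun _ => a) lam)) →
      MvPolynomial (Fin m × Fin n) ℂ := fun i =>
    (Module.finBasis ℂ (PK m (Fin n) (fun _ => a) lam) i : MvPolynomial (Fin m × Fin n) ℂ)
  have hv : LinearIndependent ℂ v :=
    (Module.finBasis ℂ (PK m (Fin n) (fun _ => a) lam)).linearIndependent.map'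
      (PK m (Fin n) (fun _ => a) lam).subtype (Submodule.ker_subtype _)
  have hvS : ∀ i, v i ∈ PK m (Fin n) (fun _ => a) lam := fun i =>
    (Module.finBasis ℂ (PK m (Fin n) (fun _ => a) lam) i).2
  have hcard : (Fintype.card (Equiv.Perm (Fin n)) : ℂ) ≠ 0 := by
    exact_mod_cast Fintype.card_ne_zero
  have hsym : ∀ i, symP n m (v i) = (Fintype.card (Equiv.Perm (Fin n)) : ℂ) • v i := by
    intro i
    rw [symP_apply, Finset.sum_congr rfl (fun e _ => (hvS i).2.2 e fun _ => rfl),
      Finset.sum_const, Finset.card_univ, Nat.cast_smul_eq_nsmul]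
  have hli : LinearIndependent ℂ (fun i => symP n m (v i)) := by
    rw [funext hsym]
    exact hv.units_smul (fun _ => Units.mk0 _ hcard)
  have h := plethMult_ge_poly (b := n) (a := a) (m := m) (lam := lam) v
    (fun i => (hvS i).1) (fun i j w hw => by
      rw [weight_colW]
      exact (hvS i).2.1 w hw j) hli
  rwa [Fintype.card_fin] at h

/-- **(N2)** -/
theorem blkS : BlkS := by
  rintro m j n q l a eta ⟨P, x, hP, hx, h⟩ hla
  have h1 := MR.H752.orbM m (Fin n) (fun _ => a - l) (fun _ => l) eta
    (fun i => if (i : ℕ) < j then q else 0) P x n.factorial hP hx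
    (fun e _ => ⟨fun _ => rfl, fun he => h e he⟩) (by
      have h3 := Fintype.card_le_of_injective
        (fun e : {e : Equiv.Perm (Fin n) // ∀ j : Fin n, (fun _ : Fin n => a - l) (e j) +
          (fun _ : Fin n => l) (e j) = (fun _ : Fin n => a - l) j + (fun _ : Fin n => l) j} =>
          (e : Equiv.Perm (Fin n))) Subtype.val_injective
      rw [Fintype.card_perm, Fintype.card_fin] at h3
      convert h3)
  refine h1.trans (Nat.mul_le_mul_left _ ?_)
  have h2 : (fun _ : Fin n => a - l + l) = fun _ => a := by
    funext _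
    omega
  rw [h2]
  exact pk_le m n a _

end Vale.Agent.P181.NR.H342
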